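import Vale.Agent.P194.H798.Defs
import Mathlib

/-!
P194 (helper798): a group whose group algebra over `F_2` is not directly finite is not surjunctive.
-/

namespace Vale.Agent.P194.H798

universe v

/-- the linear cellular automaton with kernel `c` -/
noncomputable def ca {H : Type v} [Group H] (c : MonoidAlgebra (ZMod 2) H) (x : H → ZMod 2) :
    H → ZMod 2 :=
  fun g => c.coeff.sum fun h k => k * x (g * h)

theorem ca_zero {H : Type v} [Group H] (x : H → ZMod 2) : ca (0 : MonoidAlgebra (ZMod 2) H) x = 0 := by
  funext g
  simp [ca]

theorem ca_add {H : Type v} [Group H] (c d : MonoidAlgebra (ZMod 2) H) (x : H → ZMod 2) :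
    ca (c + d) x = ca c x + ca d x := by
  classical
  funext g
  simp only [ca, MonoidAlgebra.coeff_add, Pi.add_apply]
  exact Finsupp.sum_add_index' (fun _ => by simp) (fun _ _ _ => by ring)

theorem ca_single {H : Type v} [Group H] (h : H) (k : ZMod 2) (x : H → ZMod 2) (g : H) :
    ca (MonoidAlgebra.single h k) x g = k * x (g * h) := by
  simp only [ca, MonoidAlgebra.coeff_single]
  exact Finsupp.sum_single_index (by simp)

theorem ca_add_right {H : Type v} [Group H] (c : MonoidAlgebra (ZMod 2) H) (x y : H → ZMod 2) :
    ca c (x + y) = ca c x + ca c y := by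
  classical
  funext g
  simp only [ca, Pi.add_apply, mul_add]
  exact Finsupp.sum_add

theorem ca_mul {H : Type v} [Group H] (c d : MonoidAlgebra (ZMod 2) H) (x : H → ZMod 2) :
    ca (c * d) x = ca c (ca d x) := by
  classical
  induction c using MonoidAlgebra.induction_linear with
  | zero => rw [zero_mul, ca_zero, ca_zero]
  | add c1 c2 h1 h2 => rw [add_mul, ca_add, ca_add, h1, h2]
  | single h k =>
    induction d using MonoidAlgebra.induction_linear with
    | zero =>
      rw [mul_zero, ca_zero]
      funext g
      rw [ca_single]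
      exact (mul_zero k).symm
    | add d1 d2 h1 h2 => rw [mul_add, ca_add, ca_add, ca_add_right, h1, h2]
    | single h' k' =>
      funext g
      rw [MonoidAlgebra.single_mul_single, ca_single, ca_single, ca_single, mul_assoc, mul_assoc]

theorem ca_one {H : Type v} [Group H] (x : H → ZMod 2) : ca (1 : MonoidAlgebra (ZMod 2) H) x = x := by
  funext g
  rw [MonoidAlgebra.one_def, ca_single, one_mul, mul_one]

theorem ca_shift {H : Type v} [Group H] (c : MonoidAlgebra (ZMod 2) H) (g : H) (x : H → ZMod 2) :
    ca c (fun h => x (g * h)) = fun h => ca c x (g * h) := by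
  funext h
  simp only [ca, mul_assoc]

theorem ca_inj {H : Type v} [Group H] {c d : MonoidAlgebra (ZMod 2) H}
    (h : ∀ x, ca c x = ca d x) : c = d := by
  classical
  apply MonoidAlgebra.coeff_injective
  ext k
  have h1 := congrFun (h (Pi.single k 1)) 1
  have key : ∀ e : MonoidAlgebra (ZMod 2) H, ca e (Pi.single k 1) 1 = e.coeff k := by
    intro e
    simp only [ca, one_mul, Pi.single_apply, mul_ite, mul_one, mul_zero]
    rw [Finsupp.sum, Finset.sum_ite_eq']
    split_ifs with hk
    · rfl
    · exact (Finsupp.notMem_support_iff.1 hk).symm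
  rw [key, key] at h1
  exact h1

/-- a group over which `F_2` has a group algebra that is not directly finite is not surjunctive -/
theorem not_surjunctive {H : Type v} [Group H] {a b : MonoidAlgebra (ZMod 2) H} (hab : a * b = 1)
    (hba : b * a ≠ 1) : ¬ IsSurjunctive H := by
  intro hs
  let _ : TopologicalSpace (ZMod 2) := ⊥
  have : DiscreteTopology (ZMod 2) := ⟨rfl⟩
  have hleft : ∀ x, ca a (ca b x) = x := fun x => by rw [← ca_mul, hab, ca_one]
  have hcont : Continuous (ca b) := by
    refine continuous_pi fun g => ?_
    simp only [ca, Finsupp.sum]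
    refine continuous_finsetSum _ fun h _ => ?_
    exact (continuous_of_discreteTopology (f := fun z : ZMod 2 => b.coeff h * z)).comp
      (continuous_apply (g * h))
  have hsurj := hs (ZMod 2) (ca b) hcont (fun g x => ca_shift b g x)
    (Function.LeftInverse.injective (g := ca a) hleft)
  apply hba
  apply ca_inj
  intro x
  obtain ⟨y, rfl⟩ := hsurj x
  rw [ca_mul, hleft, ca_one]

end Vale.Agent.P194.H798
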