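import Vale.Agent.P201.Bd3.B4
import Vale.Agent.P201.Bd3.B3
import Vale.Agent.P201.Bd3.B1
import Vale.Agent.P194.Bdl.B1
import Mathlib.GroupTheory.FinitelyPresentedGroup
import Vale.Agent.P194.H798.Surj

/-!
P194, stronger form (helper798): one finitely presented torsion-free word-hyperbolic group all of
whose overgroups are non-sofic and have group rings which are not directly finite, over every
nontrivial ring of characteristic 2.
-/

namespace Vale.Agent.P194.H798

universe u v

/-- a pair over `F_2[G]` gives a pair over `K[H]` for every nontrivial ring `K` of characteristic 2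
and every group `H` containing `G` -/
theorem base_change {G : Type} [Group G] {a b : MonoidAlgebra (ZMod 2) G} (hab : a * b = 1)
    (hba : b * a ≠ 1) (K : Type u) [Ring K] [Nontrivial K] [CharP K 2] (H : Type v) [Group H]
    (i : G →* H) (hi : Function.Injective i) :
    ∃ a b : MonoidAlgebra K H, a * b = 1 ∧ b * a ≠ 1 := by
  let f1 : MonoidAlgebra (ZMod 2) G →+* MonoidAlgebra (ZMod 2) H :=
    MonoidAlgebra.mapDomainRingHom (ZMod 2) i
  have hf1 : Function.Injective f1 := MonoidAlgebra.mapDomain_injective hi
  let f2 : MonoidAlgebra (ZMod 2) H →+* MonoidAlgebra K H :=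
    MonoidAlgebra.mapRingHom H (ZMod.castHom (dvd_refl 2) K)
  have hf2 : Function.Injective f2 := by
    intro x y hxy
    apply MonoidAlgebra.coeff_injective
    ext g
    have h := congrArg (fun z => MonoidAlgebra.coeff z g) hxy
    simp only [f2, MonoidAlgebra.coeff_mapRingHom] at h
    exact (ZMod.castHom (dvd_refl 2) K).injective (by simpa using h)
  refine ⟨f2 (f1 a), f2 (f1 b), by rw [← map_mul, ← map_mul, hab, map_one, map_one],
    fun h => hba (hf1 (hf2 ?_))⟩
  rw [map_mul, map_mul, h, map_one, map_one]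

/-- a group over which `F_2` has a group algebra that is not directly finite is not sofic -/
theorem not_sofic {H : Type v} [Group H] {a b : MonoidAlgebra (ZMod 2) H} (hab : a * b = 1)
    (hba : b * a ≠ 1) : ¬ IsSofic H := by
  intro hs
  apply hba
  have h : (Matrix.of fun _ _ : Unit => b) * (Matrix.of fun _ _ : Unit => a) = 1 := by
    refine sofic_matrix (K := ZMod 2) (n := Unit) hs _ _ ?_
    refine Matrix.ext fun i j => ?_
    rw [Matrix.mul_apply, show i = j from Subsingleton.elim _ _, Matrix.one_apply_eq]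
    simpa using hab
  have h2 := congrFun (congrFun h ()) ()
  rw [Matrix.mul_apply, Matrix.one_apply_eq] at h2
  simpa using h2

/-- the group of the machine -/
theorem main :
    ∃ (G : Type) (_ : Group G),
      (∀ g : G, ∀ m : ℕ, 0 < m → g ^ m = 1 → g = 1) ∧
      Group.IsFinitelyPresented G ∧
      Vale.Agent.P186.IsHyperbolicGroup G ∧
      ∀ (H : Type v) [Group H] (i : G →* H), Function.Injective i →
        ¬ IsSofic H ∧ ¬ IsSurjunctive H ∧
        ∀ (K : Type u) [Ring K] [Nontrivial K] [CharP K 2],
          ∃ a b : MonoidAlgebra K H, a * b = 1 ∧ b * a ≠ 1 := by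
  obtain ⟨S, σ, e1, he1, Y, htor, hlin, a, b, hab, hba⟩ :=
    Vale.Agent.P194.M.data Vale.Agent.P201.S.stmtLoc Vale.Agent.P201.S.stmtGlob
      Vale.Agent.P201.S.stmtTor
  have : Finite (Vale.Agent.P201.S.rels σ) :=
    (Vale.Agent.P186.Hyp.rels_finite σ).to_subtype
  refine ⟨Vale.Agent.P201.S.Gp σ, inferInstance, htor, inferInstance,
    Vale.Agent.P186.Hyp.hyperbolic_machine Vale.Agent.P186.Hyp.lin Vale.Agent.P186.Hyp.graph
      Vale.Agent.P186.Hyp.conn σ e1 he1 Y hlin, fun H _ i hi => ⟨?_, ?_, fun K _ _ _ => ?_⟩⟩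
  · obtain ⟨a', b', h1, h2⟩ := base_change hab hba (ZMod 2) H i hi
    exact not_sofic h1 h2
  · obtain ⟨a', b', h1, h2⟩ := base_change hab hba (ZMod 2) H i hi
    exact not_surjunctive h1 h2
  · exact base_change hab hba K H i hi

end Vale.Agent.P194.H798
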