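import Mathlib.Topology.Constructions
import Mathlib.Algebra.Group.Defs
import Mathlib.Topology.Order

namespace Vale.Agent.P194

/-- `G` is surjunctive: for every finite discrete alphabet `A`, every injective cellular automaton
over `G` (a continuous map `τ` from `G → A` to itself commuting with all shifts
`x ↦ (h ↦ x (g * h))`) is surjective. -/
def IsSurjunctive (G : Type*) [Group G] : Prop :=
  ∀ (A : Type) [Finite A] [TopologicalSpace A] [DiscreteTopology A] (τ : (G → A) → (G → A)),
    Continuous τ → (∀ (g : G) (x : G → A), τ (fun h => x (g * h)) = fun h => τ x (g * h)) →
    Function.Injective τ → Function.Surjective τ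

end Vale.Agent.P194
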